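import Vale.Agent.P200.Deg.LPP

/-!
P200: comparing slices of lex-plus-powers sets, and the ideals used for the first and last Betti
numbers.
-/

noncomputable section

namespace Vale.Agent.P200.Betti

open MvPolynomial Module Finset Deg

variable {n c : ℕ}

lemma finite_slice (n d : ℕ) : {x : Fin n → ℕ | ∑ i, x i = d}.Finite :=
  (Set.Finite.pi (t := fun _ : Fin n => Set.Iic d) fun _ => Set.finite_Iic d).subset
    fun x (hx : ∑ i, x i = d) i _ =>
      hx ▸ Finset.single_le_sum (f := x) (fun _ _ => Nat.zero_le _) (mem_univ i)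

/-- In a fixed degree a lex-plus-powers slice is determined by its size. -/
lemma slice_eq {P : (Fin n → ℕ) → Prop} {d : ℕ} {M M' : Set (Fin n → ℕ)}
    (hP : ∀ x, ∑ i, x i = d → P x → x ∈ M) (hP' : ∀ x, ∑ i, x i = d → P x → x ∈ M')
    (hl : ∀ x ∈ M, ∀ y, ∑ i, x i = d → ∑ i, y i = d → ¬P x → ¬P y → toLex x < toLex y → y ∈ M)
    (hl' : ∀ x ∈ M', ∀ y, ∑ i, x i = d → ∑ i, y i = d → ¬P x → ¬P y → toLex x < toLex y → y ∈ M')
    (hc : {x | x ∈ M ∧ ∑ i, x i = d}.ncard = {x | x ∈ M' ∧ ∑ i, x i = d}.ncard) :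
    ∀ x, ∑ i, x i = d → (x ∈ M ↔ x ∈ M') := by
  have hfin : ∀ N : Set (Fin n → ℕ), {x | x ∈ N ∧ ∑ i, x i = d}.Finite := fun N =>
    (finite_slice n d).subset fun x hx => hx.2
  have key : {x | x ∈ M ∧ ∑ i, x i = d} ⊆ {x | x ∈ M' ∧ ∑ i, x i = d} ∨
      {x | x ∈ M' ∧ ∑ i, x i = d} ⊆ {x | x ∈ M ∧ ∑ i, x i = d} := by
    by_contra hcon
    rw [not_or, Set.not_subset, Set.not_subset] at hcon
    obtain ⟨⟨u, ⟨huM, hud⟩, hu'⟩, v, ⟨hvM, hvd⟩, hv'⟩ := hcon
    have huP : ¬P u := fun h => hu' ⟨hP' u hud h, hud⟩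
    have hvP : ¬P v := fun h => hv' ⟨hP v hvd h, hvd⟩
    rcases lt_trichotomy (toLex u) (toLex v) with h | h | h
    · exact hv' ⟨hl u huM v hud hvd huP hvP h, hvd⟩
    · exact hu' ⟨(toLex.injective h).symm ▸ hvM, hud⟩
    · exact hu' ⟨hl' v hvM u hvd hud hvP huP h, hud⟩
  have heq : {x | x ∈ M ∧ ∑ i, x i = d} = {x | x ∈ M' ∧ ∑ i, x i = d} := by
    rcases key with h | h
    · exact Set.eq_of_subset_of_ncard_le h hc.ge (hfin M')
    · exact (Set.eq_of_subset_of_ncard_le h hc.le (hfin M)).symm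
  intro x hx
  exact ⟨fun h => ((Set.ext_iff.1 heq x).1 ⟨h, hx⟩).1, fun h => ((Set.ext_iff.1 heq x).2 ⟨h, hx⟩).1⟩

variable {K : Type*} [Field K]

lemma component_X_mul {p : MvPolynomial (Fin n) K} (i : Fin n) (d : ℕ) :
    homogeneousComponent (d + 1) (X i * p) = X i * homogeneousComponent d p :=
  component_mul (isHomogeneous_X K i) p d

/-- The forms of degree `d` of `I` together with lower ones generate nothing new in degree `d + 1`. -/
theorem exists_low {I : Ideal (MvPolynomial (Fin n) K)} (hI : Homog I) {G : Set (MvPolynomial (Fin n) K)}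
    {d : ℕ} (hG : ∀ g ∈ G, g ∈ I ∧ ∃ e ≤ d, g.IsHomogeneous e) :
    ∃ I' : Ideal (MvPolynomial (Fin n) K), Homog I' ∧ G ⊆ I' ∧ piece I' d = piece I d ∧
      piece I' (d + 1) ≤ Submodule.span K
        {r | ∃ i, ∃ p ∈ piece I d, r = (X i : MvPolynomial (Fin n) K) * p} := by
  set G' := G ∪ (piece I d : Set (MvPolynomial (Fin n) K))
  have hG' : ∀ g ∈ G', g ∈ I ∧ ∃ e ≤ d, g.IsHomogeneous e := by
    rintro g (hg | hg)
    · exact hG g hg
    · exact ⟨(mem_piece.1 hg).1, d, le_rfl, (mem_piece.1 hg).2⟩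
  have hH : Homog (Ideal.span G') := by
    intro p hp e
    suffices ∀ r, homogeneousComponent e (r * p) ∈ Ideal.span G' by simpa using this 1
    induction hp using Submodule.span_induction with
    | mem g hg =>
      obtain ⟨-, f, -, hgf⟩ := hG' g hg
      intro r
      rw [component_mul_homog hgf]
      split_ifs
      · exact Ideal.mul_mem_left _ _ (Ideal.subset_span hg)
      · exact Ideal.zero_mem _
    | zero => intro r; simp
    | add x y _ _ hx hy => intro r; rw [mul_add, map_add]; exact add_mem (hx r) (hy r)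
    | smul s x _ hx => intro r; rw [smul_eq_mul, ← mul_assoc]; exact hx _
  have hle : Ideal.span G' ≤ I := Ideal.span_le.2 fun g hg => (hG' g hg).1
  refine ⟨_, hH, fun g hg => Ideal.subset_span (Or.inl hg),
    le_antisymm (inf_le_inf_right _ hle) (fun x hx => mem_piece.2
      ⟨Ideal.subset_span (Or.inr hx), (mem_piece.1 hx).2⟩), fun p hp => ?_⟩
  set W := Submodule.span K {r | ∃ i, ∃ p ∈ piece I d, r = (X i : MvPolynomial (Fin n) K) * p}
  obtain ⟨hpG, hpd⟩ := mem_piece.1 hp
  rw [← homogeneousComponent_eq_self hpd, ← one_mul p]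
  clear hpd hp
  generalize (1 : MvPolynomial (Fin n) K) = r
  induction hpG using Submodule.span_induction generalizing r with
  | mem g hg =>
    obtain ⟨hgI, f, hf, hgf⟩ := hG' g hg
    rw [component_mul_homog hgf, if_pos (by omega)]
    have hr : homogeneousComponent (d + 1 - f) r ∈ part K n (d + 1 - f) :=
      homogeneousComponent_isHomogeneous _ _
    rw [part_eq_span_monomials] at hr
    generalize homogeneousComponent (d + 1 - f) r = u at hr
    induction hr using Submodule.span_induction with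
    | mem x hx =>
      obtain ⟨s, hs, rfl⟩ := hx
      have hs' : s.degree = d + 1 - f := hs
      obtain ⟨i, hi⟩ : ∃ i, s i ≠ 0 := by
        by_contra hc
        simp only [not_exists, not_not] at hc
        have : s = 0 := Finsupp.ext hc
        simp [this] at hs'
        omega
      have hle' : Finsupp.single i 1 ≤ s := Finsupp.single_le_iff.2 (Nat.one_le_iff_ne_zero.2 hi)
      obtain ⟨s', rfl⟩ : ∃ s', s = Finsupp.single i 1 + s' := ⟨_, (add_tsub_cancel_of_le hle').symm⟩
      rw [map_add, Finsupp.degree_single] at hs'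
      show monomial (Finsupp.single i 1 + s') (1 : K) * g ∈ W
      rw [monomial_single_add, pow_one, mul_assoc]
      refine Submodule.subset_span ⟨i, _, mem_piece.2 ⟨I.mul_mem_left _ hgI, ?_⟩, rfl⟩
      have h := (isHomogeneous_monomial (1 : K) (show s'.degree = d - f by omega)).mul hgf
      rwa [Nat.sub_add_cancel hf] at h
    | zero => rw [zero_mul]; exact zero_mem _
    | add x y _ _ hx hy => rw [add_mul]; exact add_mem hx hy
    | smul t x _ hx => rw [smul_mul_assoc]; exact Submodule.smul_mem _ _ hx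
  | zero => simp
  | add x y _ _ hx hy => rw [mul_add, map_add]; exact add_mem (hx r) (hy r)
  | smul t x _ hx => rw [smul_eq_mul, ← mul_assoc]; exact hx _

/-- The forms of degree `d` multiplied into `I` by every variable. -/
def socle (I : Ideal (MvPolynomial (Fin n) K)) (d : ℕ) : Submodule K (MvPolynomial (Fin n) K) where
  carrier := {p | p.IsHomogeneous d ∧ ∀ i, X i * p ∈ I}
  add_mem' ha hb := ⟨ha.1.add hb.1, fun i => by rw [mul_add]; exact add_mem (ha.2 i) (hb.2 i)⟩
  zero_mem' := ⟨isHomogeneous_zero _ _ _, fun i => by simp⟩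
  smul_mem' r p hp := ⟨(part K n d).smul_mem r hp.1,
    fun i => by rw [mul_smul_comm]; exact Submodule.smul_of_tower_mem _ r (hp.2 i)⟩

/-- Adding the socle of degree `d` changes nothing in degree `d + 1`. -/
theorem exists_socle {I : Ideal (MvPolynomial (Fin n) K)} (hI : Homog I) (d : ℕ) :
    ∃ I' : Ideal (MvPolynomial (Fin n) K), Homog I' ∧ I ≤ I' ∧ piece I' d = socle I d ∧
      piece I' (d + 1) = piece I (d + 1) := by
  set g := fun x : socle I d => x.1
  obtain ⟨hH, -⟩ := sup_powers hI (g := g) (N := d) fun x => x.2.1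
  have hmem : ∀ p ∈ I ⊔ Ideal.span (Set.range g),
      homogeneousComponent d p ∈ socle I d ∧ homogeneousComponent (d + 1) p ∈ I := by
    intro p hp
    obtain ⟨u, hu, w, hw, rfl⟩ := Submodule.mem_sup.1 hp
    have hu' : homogeneousComponent d u ∈ socle I d :=
      ⟨homogeneousComponent_isHomogeneous _ _, fun i => I.mul_mem_left _ (hI u hu d)⟩
    obtain ⟨f, rfl⟩ := Finsupp.mem_span_range_iff_exists_finsupp.1 hw
    rw [map_add, map_add, Finsupp.sum, map_sum, map_sum]
    refine ⟨add_mem hu' (Submodule.sum_mem _ fun x _ => ?_),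
      add_mem (hI u hu _) (Ideal.sum_mem _ fun x _ => ?_)⟩
    · rw [smul_eq_mul, component_mul_homog x.2.1, if_pos le_rfl, Nat.sub_self,
        homogeneousComponent_zero, ← smul_eq_C_mul]
      exact (socle I d).smul_mem _ x.2
    · rw [smul_eq_mul, component_mul_homog x.2.1, if_pos (Nat.le_succ d), Nat.add_sub_cancel_left]
      obtain ⟨r, hr⟩ := exists_linear (homogeneousComponent_isHomogeneous (R := K) 1 (f x))
      rw [hr, Finset.sum_mul]
      refine Ideal.sum_mem _ fun i _ => ?_
      rw [smul_mul_assoc]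
      exact Submodule.smul_of_tower_mem _ _ (x.2.2 i)
  refine ⟨_, hH, le_sup_left, le_antisymm (fun p hp => ?_) (fun p hp => ?_),
    le_antisymm (fun p hp => ?_) (inf_le_inf_right _ fun p hp => Submodule.mem_sup_left hp)⟩
  · obtain ⟨h1, h2⟩ := mem_piece.1 hp
    exact homogeneousComponent_eq_self h2 ▸ (hmem p h1).1
  · exact mem_piece.2 ⟨Submodule.mem_sup_right (Ideal.subset_span ⟨⟨p, hp⟩, rfl⟩), hp.1⟩
  · obtain ⟨h1, h2⟩ := mem_piece.1 hp
    exact mem_piece.2 ⟨homogeneousComponent_eq_self h2 ▸ (hmem p h1).2, h2⟩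

end Vale.Agent.P200.Betti
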