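import Vale.Agent.P200.Growth.Descend
import Vale.Agent.P200.Betti.Basic

/-!
P200: the lex-plus-powers set bounds the minimal generators and the socle of the ideal: the first
and last rows of the Betti table.
-/

noncomputable section

namespace Vale.Agent.P200.Betti

open MvPolynomial Module Finset Deg Growth

variable {K : Type*} [Field K] {n c : ℕ}

/-- The lex-plus-powers set with the two bounds. -/
theorem lpp_betti (hc : c ≤ n) {I : Ideal (MvPolynomial (Fin n) K)}
    (hI : Homog I) {a : Fin c → ℕ} (ha : ∀ i, 1 ≤ a i) (hmono : Monotone a)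
    {q : Fin c → MvPolynomial (Fin n) K} (hq : ∀ i, q i ∈ I) (hd : ∀ i, (q i).IsHomogeneous (a i))
    (hreg : Deg.Regular q) {E : Finset (Fin c)} (hE : Adm a E)
    (hEs : ∀ i, i ∉ E → SplitN (a i) (ext (AlgebraicClosure K) (q i))) :
    ∃ M : Set (Fin n → ℕ),
      (∀ x, (∃ i, a i ≤ x (Fin.castLE hc i)) → x ∈ M) ∧
      (∀ x ∈ M, ∀ i, x + Pi.single i 1 ∈ M) ∧
      (∀ x ∈ M, ∀ y, (∀ i, x (Fin.castLE hc i) < a i) → (∀ i, y (Fin.castLE hc i) < a i) →
        ∑ i, x i = ∑ i, y i → toLex x < toLex y → y ∈ M) ∧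
      (∀ d : ℕ, {x | x ∈ M ∧ ∑ i, x i = d}.ncard = finrank K ↥(piece I d)) ∧
      (∀ d : ℕ, finrank K ↥(piece I (d + 1)) ≤
        {x | x ∈ M ∧ ∑ i, x i = d + 1 ∧ ∀ i, ∀ y ∈ M, y + Pi.single i 1 ≠ x}.ncard
          + finrank K ↥(Submodule.span K
              {r | ∃ i, ∃ p ∈ piece I d, r = (X i : MvPolynomial (Fin n) K) * p})) ∧
      (∀ d : ℕ, finrank K ↥(Submodule.span K
          {p : MvPolynomial (Fin n) K | p.IsHomogeneous d ∧ ∀ i, X i * p ∈ I})
        ≤ {x : Fin n → ℕ | ∑ i, x i = d ∧ ∀ i, x + Pi.single i 1 ∈ M}.ncard) := by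
  classical
  obtain ⟨M, h1, h2, h3, h4⟩ := lpp hc hI ha hmono hq hd hreg hE hEs
  have hup : ∀ (x : Fin n → ℕ) i, ∑ j, (x + Pi.single i 1 : Fin n → ℕ) j = (∑ j, x j) + 1 := fun x i => by
    simp [Finset.sum_add_distrib]
  refine ⟨M, h1, h2, h3, h4, fun d => ?_, fun d => ?_⟩
  · -- the forms of degree at most `d`
    set c' := (univ.filter fun i : Fin c => a i ≤ d).card
    have hc' : ∀ i : Fin c, (i : ℕ) < c' ↔ a i ≤ d := fun i => by
      constructor
      · intro hi
        by_contra hlt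
        have : c' ≤ (Finset.Iio i).card := card_le_card fun j hj => Finset.mem_Iio.2 (by
          by_contra hji
          have := hmono (not_lt.1 hji)
          have := (mem_filter.1 hj).2
          omega)
        rw [Fin.card_Iio] at this
        omega
      · intro hi
        have : (Finset.Iic i).card ≤ c' := card_le_card fun j hj =>
          mem_filter.2 ⟨mem_univ _, (hmono (Finset.mem_Iic.1 hj)).trans hi⟩
        rw [Fin.card_Iic] at this
        omega
    have hcc : c' ≤ c := (card_le_univ _).trans_eq (Fintype.card_fin c)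
    set f := Fin.castLE hcc
    have hfa : ∀ i, a (f i) ≤ d := fun i => (hc' (f i)).1 i.isLt
    obtain ⟨I', hI', hG, hId, hId1⟩ := exists_low hI (G := Set.range (q ∘ f)) (d := d) (by
      rintro _ ⟨i, rfl⟩; exact ⟨hq _, a (f i), hfa i, hd _⟩)
    have himg : ∀ i : Fin c', (q ∘ f) '' {k | k < i} = q '' {k | k < f i} := fun i => by
      ext p
      constructor
      · rintro ⟨j, hj, rfl⟩; exact ⟨f j, hj, rfl⟩
      · rintro ⟨j, hj, rfl⟩
        exact ⟨⟨j, lt_trans (show (j : ℕ) < (i : ℕ) from hj) i.isLt⟩, hj, rfl⟩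
    set E' := univ.filter fun i : Fin c' => f i ∈ E
    obtain ⟨M', h1', h2', h3', h4'⟩ := lpp (hcc.trans hc) hI' (a := a ∘ f) (fun i => ha _)
      (hmono.comp fun i j h => h) (q := q ∘ f) (fun i => hG ⟨i, rfl⟩) (fun i => hd _)
      (fun i p hp => by rw [himg] at hp ⊢; exact hreg (f i) p hp) (E := E')
      (hE.transport (fun i => f i.1) (fun i j h => h) (fun i => (mem_filter.1 i.2).2) fun i => rfl)
      (fun i hi => hEs (f i) fun h => hi (mem_filter.2 ⟨mem_univ _, h⟩))
    let P : (Fin n → ℕ) → Prop := fun x => ∃ i, a i ≤ x (Fin.castLE hc i)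
    have hPP : ∀ x, ∑ i, x i = d → P x → ∃ i : Fin c', a (f i) ≤ x (Fin.castLE (hcc.trans hc) i) :=
      fun x hx ⟨i, hi⟩ => by
        have := Finset.single_le_sum (f := x) (fun _ _ => Nat.zero_le _) (mem_univ (Fin.castLE hc i))
        exact ⟨⟨i, (hc' i).2 (by omega)⟩, hi⟩
    have heq := slice_eq (P := P) (d := d) (M := M) (M' := M') (fun x _ hx => h1 x hx)
      (fun x hx hPx => h1' x (hPP x hx hPx))
      (fun x hx y hxd hyd hPx hPy => h3 x hx y (fun i => not_le.1 fun h => hPx ⟨i, h⟩)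
        (fun i => not_le.1 fun h => hPy ⟨i, h⟩) (hxd.trans hyd.symm))
      (fun x hx y hxd hyd hPx hPy => h3' x hx y (fun i => not_le.1 fun h => hPx ⟨f i, h⟩)
        (fun i => not_le.1 fun h => hPy ⟨f i, h⟩) (hxd.trans hyd.symm))
      (by rw [h4, h4', hId])
    have hfin := finite_slice n (d + 1)
    set B := {x | x ∈ M' ∧ ∑ i, x i = d + 1}
    set G := {x | x ∈ M ∧ ∑ i, x i = d + 1 ∧ ∀ i, ∀ y ∈ M, y + Pi.single i 1 ≠ x}
    have hsub : {x | x ∈ M ∧ ∑ i, x i = d + 1} ⊆ G ∪ B := by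
      rintro x ⟨hx, hxd⟩
      by_cases hg : ∀ i, ∀ y ∈ M, y + Pi.single i 1 ≠ x
      · exact Or.inl ⟨hx, hxd, hg⟩
      simp only [not_forall, not_not] at hg
      obtain ⟨i, y, hy, rfl⟩ := hg
      have hyd : ∑ j, y j = d := by rw [hup] at hxd; omega
      exact Or.inr ⟨h2' y ((heq y hyd).1 hy) i, hxd⟩
    have := (Set.ncard_le_ncard hsub ((hfin.subset fun x hx => hx.2.1).union
      (hfin.subset fun x hx => hx.2))).trans (Set.ncard_union_le _ _)
    rw [h4, h4'] at this
    have hS : Module.Finite K ↥(Submodule.span K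
        {r | ∃ i, ∃ p ∈ piece I d, r = (X i : MvPolynomial (Fin n) K) * p}) :=
      Submodule.finiteDimensional_of_le (S₂ := part K n (d + 1)) (Submodule.span_le.2 (by
        rintro _ ⟨i, p, hp, rfl⟩
        exact add_comm 1 d ▸ (isHomogeneous_X K i).mul (mem_piece.1 hp).2))
    have := Submodule.finrank_mono hId1
    omega
  · obtain ⟨I', hI', hle, hId, hId1⟩ := exists_socle hI d
    obtain ⟨M', h1', h2', h3', h4'⟩ := lpp hc hI' ha hmono (fun i => hle (hq i)) hd hreg hE hEs
    let P : (Fin n → ℕ) → Prop := fun x => ∃ i, a i ≤ x (Fin.castLE hc i)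
    have heq := slice_eq (P := P) (d := d + 1) (M := M) (M' := M') (fun x _ hx => h1 x hx)
      (fun x _ hx => h1' x hx)
      (fun x hx y hxd hyd hPx hPy => h3 x hx y (fun i => not_le.1 fun h => hPx ⟨i, h⟩)
        (fun i => not_le.1 fun h => hPy ⟨i, h⟩) (hxd.trans hyd.symm))
      (fun x hx y hxd hyd hPx hPy => h3' x hx y (fun i => not_le.1 fun h => hPx ⟨i, h⟩)
        (fun i => not_le.1 fun h => hPy ⟨i, h⟩) (hxd.trans hyd.symm))
      (by rw [h4, h4', hId1])
    have hspan : Submodule.span K {p : MvPolynomial (Fin n) K | p.IsHomogeneous d ∧ ∀ i, X i * p ∈ I}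
        = socle I d := Submodule.span_eq (socle I d)
    rw [hspan, ← hId, ← h4']
    refine Set.ncard_le_ncard (fun x ⟨hx, hxd⟩ => ⟨hxd, fun i => ?_⟩)
      ((finite_slice n d).subset fun x hx => hx.1)
    exact (heq _ (by rw [hup, hxd])).2 (h2' x hx i)

end Vale.Agent.P200.Betti
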